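import Mathlib

/-!
Global smooth inverse of `id + P` for a smooth contraction `P`.
-/

set_option autoImplicit false

open Set

namespace Crest.Agent.R205

theorem exists_smooth_inverse {V : Type*} [NormedAddCommGroup V] [NormedSpace ℝ V]
    [CompleteSpace V] [Nontrivial V] (P : V → V) (hP : ContDiff ℝ (⊤ : ℕ∞) P) (c : NNReal)
    (hc : c < 1) (hL : LipschitzWith c P) :
    ∃ Q : V → V, ContDiff ℝ (⊤ : ℕ∞) Q ∧ (∀ v, Q (v + P v) = v) ∧ ∀ v, Q v + P (Q v) = v := by
  have hA : ApproximatesLinearOn (fun v => v + P v)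
      ((ContinuousLinearEquiv.refl ℝ V : V ≃L[ℝ] V) : V →L[ℝ] V) univ c := by
    intro x _ y _
    have := hL.norm_sub_le x y
    simpa [add_sub_add_comm] using this
  have hc' : Subsingleton V ∨
      c < ‖((ContinuousLinearEquiv.refl ℝ V : V ≃L[ℝ] V).symm : V →L[ℝ] V)‖₊⁻¹ := by
    right
    simpa using hc
  let e : V ≃ₜ V := hA.toHomeomorph _ hc'
  have he : ∀ v, e v = v + P v := fun v => rfl
  have hdiff : Differentiable ℝ P := hP.differentiable (by simp)
  have hn : ∀ a, ‖-(fderiv ℝ P a)‖ < 1 := by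
    intro a
    rw [norm_neg]
    exact lt_of_le_of_lt (norm_fderiv_le_of_lipschitz ℝ hL) (by exact_mod_cast hc)
  let D : V → V ≃L[ℝ] V := fun a =>
    ContinuousLinearEquiv.unitsEquiv ℝ V (Units.oneSub (-(fderiv ℝ P a)) (hn a))
  have hD : ∀ a, HasFDerivAt e (D a : V →L[ℝ] V) a := by
    intro a
    have h1 : HasFDerivAt (fun v => v + P v) (ContinuousLinearMap.id ℝ V + fderiv ℝ P a) a :=
      (hasFDerivAt_id a).add (hdiff a).hasFDerivAt
    have h2 : (D a : V →L[ℝ] V) = ContinuousLinearMap.id ℝ V + fderiv ℝ P a := by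
      ext v
      simp [D]
    rw [h2]
    exact h1
  have hsm : ContDiff ℝ (⊤ : ℕ∞) e := contDiff_id.add hP
  refine ⟨e.symm, e.contDiff_symm hD hsm, fun v => ?_, fun v => ?_⟩
  · rw [← he]; exact e.symm_apply_apply v
  · rw [← he]; exact e.apply_symm_apply v

/-- Parametrised version: `m ↦ m + G (t, m)` has a jointly smooth inverse once `G` is a small
multiple of a smooth compactly supported map. -/
theorem exists_param_inverse {E : Type*} [NormedAddCommGroup E] [NormedSpace ℝ E]
    [CompleteSpace E] (G : ℝ × E → E) (hG : ContDiff ℝ (⊤ : ℕ∞) G) (c : NNReal)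
    (hc : c < 1) (hL : LipschitzWith c G) :
    ∃ M : ℝ × E → E, ContDiff ℝ (⊤ : ℕ∞) M ∧ (∀ t m, M (t, m + G (t, m)) = m) ∧
      ∀ t z, M (t, z) + G (t, M (t, z)) = z := by
  have hL' : LipschitzWith c (fun p : ℝ × E => ((0 : ℝ), G p)) := by
    have := (LipschitzWith.const (α := ℝ × E) (0 : ℝ)).prodMk hL
    simpa using this
  obtain ⟨Q, hQ, h1, h2⟩ := exists_smooth_inverse (fun p : ℝ × E => ((0 : ℝ), G p))
    (contDiff_const.prodMk hG) c hc hL'
  have h3 : ∀ p, (Q p).1 = p.1 := fun p => by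
    have := congrArg Prod.fst (h2 p)
    simpa using this
  refine ⟨fun p => (Q p).2, contDiff_snd.comp hQ, fun t m => ?_, fun t z => ?_⟩
  · have := congrArg Prod.snd (h1 (t, m))
    simpa using this
  · have h4 := congrArg Prod.snd (h2 (t, z))
    have h5 : Q (t, z) = (t, (Q (t, z)).2) := Prod.ext (h3 _) rfl
    rw [h5] at h4
    simpa using h4

end Crest.Agent.R205
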