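import Mathlib
import Crest.Prelude.Def_QuadricHamiltonian

/-!
Linear algebra on `ℂ⁵` used for the Hamiltonian diffeomorphism of the quadric threefold.
-/

set_option autoImplicit false

open Crest.GeometryTopology.Quadric

namespace Crest.Agent.R205

abbrev E := Fin 5 → ℂ

/-- the symplectic pairing as a bilinear map -/
noncomputable def omL : E →ₗ[ℝ] E →ₗ[ℝ] ℝ :=
  LinearMap.mk₂ ℝ (fun u w => 2 * (herm u w).im)
    (by intro u v w; simp [herm, Fin.sum_univ_five]; ring)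
    (by intro c u w; simp [herm, Fin.sum_univ_five]; ring)
    (by intro u v w; simp [herm, Fin.sum_univ_five]; ring)
    (by intro c u w; simp [herm, Fin.sum_univ_five]; ring)

/-- the symplectic pairing as a continuous bilinear map -/
noncomputable def om : E →L[ℝ] E →L[ℝ] ℝ := omL.toContinuousBilinearMap

theorem om_apply (u w : E) : om u w = 2 * (herm u w).im := rfl

theorem om_coord (u w : E) : om u w =
    2 * (((u 0).re * (w 0).im - (u 0).im * (w 0).re) + ((u 1).re * (w 1).im - (u 1).im * (w 1).re)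
      + ((u 2).re * (w 2).im - (u 2).im * (w 2).re) + ((u 3).re * (w 3).im - (u 3).im * (w 3).re)
      + ((u 4).re * (w 4).im - (u 4).im * (w 4).re)) := by
  simp [om_apply, herm, Fin.sum_univ_five]; ring

theorem om_swap (u w : E) : om u w = - om w u := by
  rw [om_coord, om_coord]; ring

/-- a real-linear self-map of `ℂ⁵` from an explicit formula -/
noncomputable def mkL (f : E → E) (h1 : ∀ u v, f (u + v) = f u + f v)
    (h2 : ∀ (c : ℝ) u, f (c • u) = c • f u) : E →L[ℝ] E :=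
  LinearMap.toContinuousLinearMap
    { toFun := f, map_add' := h1, map_smul' := h2 }

@[simp] theorem mkL_apply (f : E → E) (h1 : ∀ u v, f (u + v) = f u + f v)
    (h2 : ∀ (c : ℝ) u, f (c • u) = c • f u) (z : E) : mkL f h1 h2 z = f z := rfl

noncomputable def L1 : E →L[ℝ] E := mkL (fun z => ![-z 1, z 0, -z 3, z 2, 0])
  (by intro u v; ext j; fin_cases j <;> simp <;> ring)
  (by intro c u; ext j; fin_cases j <;> simp)

noncomputable def L2 : E →L[ℝ] E := mkL (fun z => ![-z 2, z 3, z 0, -z 1, 0])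
  (by intro u v; ext j; fin_cases j <;> simp <;> ring)
  (by intro c u; ext j; fin_cases j <;> simp)

noncomputable def R1 : E →L[ℝ] E := mkL (fun z => ![-z 1, z 0, z 3, -z 2, 0])
  (by intro u v; ext j; fin_cases j <;> simp <;> ring)
  (by intro c u; ext j; fin_cases j <;> simp)

noncomputable def R2 : E →L[ℝ] E := mkL (fun z => ![-z 2, -z 3, z 0, z 1, 0])
  (by intro u v; ext j; fin_cases j <;> simp <;> ring)
  (by intro c u; ext j; fin_cases j <;> simp)

noncomputable def P4 : E →L[ℝ] E := mkL (fun z => ![z 0, z 1, z 2, z 3, 0])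
  (by intro u v; ext j; fin_cases j <;> simp)
  (by intro c u; ext j; fin_cases j <;> simp)

@[simp] theorem L1_0 (z : E) : L1 z 0 = -z 1 := rfl
@[simp] theorem L1_1 (z : E) : L1 z 1 = z 0 := rfl
@[simp] theorem L1_2 (z : E) : L1 z 2 = -z 3 := rfl
@[simp] theorem L1_3 (z : E) : L1 z 3 = z 2 := rfl
@[simp] theorem L1_4 (z : E) : L1 z 4 = 0 := rfl
@[simp] theorem L2_0 (z : E) : L2 z 0 = -z 2 := rfl
@[simp] theorem L2_1 (z : E) : L2 z 1 = z 3 := rfl
@[simp] theorem L2_2 (z : E) : L2 z 2 = z 0 := rfl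
@[simp] theorem L2_3 (z : E) : L2 z 3 = -z 1 := rfl
@[simp] theorem L2_4 (z : E) : L2 z 4 = 0 := rfl
@[simp] theorem R1_0 (z : E) : R1 z 0 = -z 1 := rfl
@[simp] theorem R1_1 (z : E) : R1 z 1 = z 0 := rfl
@[simp] theorem R1_2 (z : E) : R1 z 2 = z 3 := rfl
@[simp] theorem R1_3 (z : E) : R1 z 3 = -z 2 := rfl
@[simp] theorem R1_4 (z : E) : R1 z 4 = 0 := rfl
@[simp] theorem R2_0 (z : E) : R2 z 0 = -z 2 := rfl
@[simp] theorem R2_1 (z : E) : R2 z 1 = -z 3 := rfl
@[simp] theorem R2_2 (z : E) : R2 z 2 = z 0 := rfl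
@[simp] theorem R2_3 (z : E) : R2 z 3 = z 1 := rfl
@[simp] theorem R2_4 (z : E) : R2 z 4 = 0 := rfl
@[simp] theorem P4_0 (z : E) : P4 z 0 = z 0 := rfl
@[simp] theorem P4_1 (z : E) : P4 z 1 = z 1 := rfl
@[simp] theorem P4_2 (z : E) : P4 z 2 = z 2 := rfl
@[simp] theorem P4_3 (z : E) : P4 z 3 = z 3 := rfl
@[simp] theorem P4_4 (z : E) : P4 z 4 = 0 := rfl

theorem ext5 {u v : E} (h0 : u 0 = v 0) (h1 : u 1 = v 1) (h2 : u 2 = v 2) (h3 : u 3 = v 3)
    (h4 : u 4 = v 4) : u = v := by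
  ext j
  fin_cases j
  exacts [h0, h1, h2, h3, h4]

theorem om_L1 (u v : E) : om (L1 u) v = om (L1 v) u := by
  simp [om_coord]; ring
theorem om_L2 (u v : E) : om (L2 u) v = om (L2 v) u := by
  simp [om_coord]; ring
theorem om_R1 (u v : E) : om (R1 u) v = om (R1 v) u := by
  simp [om_coord]; ring
theorem om_R2 (u v : E) : om (R2 u) v = om (R2 v) u := by
  simp [om_coord]; ring

/-- the quadratic Hamiltonian of a linear vector field -/
noncomputable def mom (L : E →L[ℝ] E) (z : E) : ℝ := (1 / 2) * om (L z) z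

theorem contDiff_mom (L : E →L[ℝ] E) : ContDiff ℝ (⊤ : ℕ∞) (mom L) := by
  unfold mom
  exact contDiff_const.mul (((om.contDiff).comp L.contDiff).clm_apply contDiff_id)

theorem hasFDerivAt_mom (L : E →L[ℝ] E) (hL : ∀ u v, om (L u) v = om (L v) u) (z : E) :
    HasFDerivAt (mom L) (om (L z)) z := by
  have h1 : HasFDerivAt (fun z => om (L z)) (om.comp L) z := (om.comp L).hasFDerivAt
  have h2 := (h1.clm_apply (hasFDerivAt_id z)).const_mul (1 / 2 : ℝ)
  refine h2.congr_fderiv ?_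
  ext v
  simp [hL v z]
  ring

/-- `μ_{jk}` -/
def mu (z : E) (j k : Fin 5) : ℝ := (z j).re * (z k).im - (z j).im * (z k).re

theorem mom_L1 (z : E) : mom L1 z = 2 * (mu z 0 1 + mu z 2 3) := by
  simp [mom, om_coord, mu]; ring
theorem mom_L2 (z : E) : mom L2 z = 2 * (mu z 0 2 - mu z 1 3) := by
  simp [mom, om_coord, mu]; ring
theorem mom_R1 (z : E) : mom R1 z = 2 * (mu z 0 1 - mu z 2 3) := by
  simp [mom, om_coord, mu]; ring
theorem mom_R2 (z : E) : mom R2 z = 2 * (mu z 0 2 + mu z 1 3) := by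
  simp [mom, om_coord, mu]; ring

/-- the Hamiltonian `x₂ (1 - y₁) + y₂ (1 - x₁)` -/
noncomputable def Fh (z : E) : ℝ := mom L2 z * (1 - mom R1 z) + mom R2 z * (1 - mom L1 z)

/-- its Hamiltonian vector field -/
noncomputable def Xf (z : E) : E :=
  (1 - mom R1 z) • L2 z - mom R2 z • L1 z + (1 - mom L1 z) • R2 z - mom L2 z • R1 z

theorem contDiff_Fh : ContDiff ℝ (⊤ : ℕ∞) Fh := by
  unfold Fh
  exact ((contDiff_mom L2).mul (contDiff_const.sub (contDiff_mom R1))).add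
    ((contDiff_mom R2).mul (contDiff_const.sub (contDiff_mom L1)))

theorem contDiff_Xf : ContDiff ℝ (⊤ : ℕ∞) Xf := by
  unfold Xf
  exact ((((contDiff_const.sub (contDiff_mom R1)).smul L2.contDiff).sub
    ((contDiff_mom R2).smul L1.contDiff)).add
    ((contDiff_const.sub (contDiff_mom L1)).smul R2.contDiff)).sub
    ((contDiff_mom L2).smul R1.contDiff)

theorem hasFDerivAt_Fh (z : E) : HasFDerivAt Fh (om (Xf z)) z := by
  have h := ((hasFDerivAt_mom L2 om_L2 z).mul ((hasFDerivAt_mom R1 om_R1 z).const_sub 1)).add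
    ((hasFDerivAt_mom R2 om_R2 z).mul ((hasFDerivAt_mom L1 om_L1 z).const_sub 1))
  refine h.congr_fderiv ?_
  ext v
  simp [Xf]
  ring

theorem exists_hasFDerivAt_Xf (z : E) :
    ∃ B : E →L[ℝ] E, HasFDerivAt Xf B z ∧ ∀ u v, om (B u) v = om (B v) u := by
  have h := (((((hasFDerivAt_mom R1 om_R1 z).const_sub 1).smul L2.hasFDerivAt).sub
    ((hasFDerivAt_mom R2 om_R2 z).smul L1.hasFDerivAt)).add
    (((hasFDerivAt_mom L1 om_L1 z).const_sub 1).smul R2.hasFDerivAt)).sub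
    ((hasFDerivAt_mom L2 om_L2 z).smul R1.hasFDerivAt)
  refine ⟨_, h, fun u v => ?_⟩
  simp [om_L1 u v, om_L2 u v, om_R1 u v, om_R2 u v]
  ring

theorem mu_smul (c : ℂ) (z : E) (j k : Fin 5) : mu (c • z) j k = Complex.normSq c * mu z j k := by
  simp [mu, Complex.normSq_apply]; ring

theorem normSq_of_norm {c : ℂ} (hc : ‖c‖ = 1) : Complex.normSq c = 1 := by
  rw [Complex.normSq_eq_norm_sq, hc]; norm_num

theorem Fh_smul (c : ℂ) (hc : ‖c‖ = 1) (z : E) : Fh (c • z) = Fh z := by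
  simp [Fh, mom_L1, mom_L2, mom_R1, mom_R2, mu_smul, normSq_of_norm hc]

theorem Xf_smul (c : ℂ) (hc : ‖c‖ = 1) (z : E) : Xf (c • z) = c • Xf z := by
  simp only [Xf, mom_L1, mom_L2, mom_R1, mom_R2, mu_smul, normSq_of_norm hc, one_mul]
  apply ext5 <;> simp <;> ring

/-- squared Hermitian norm -/
def nsq (z : E) : ℝ := (herm z z).re

theorem nsq_coord (z : E) : nsq z = ((z 0).re ^ 2 + (z 0).im ^ 2) + ((z 1).re ^ 2 + (z 1).im ^ 2)
    + ((z 2).re ^ 2 + (z 2).im ^ 2) + ((z 3).re ^ 2 + (z 3).im ^ 2)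
    + ((z 4).re ^ 2 + (z 4).im ^ 2) := by
  simp [nsq, herm, Fin.sum_univ_five]; ring

theorem herm_self (z : E) : herm z z = (nsq z : ℂ) := by
  apply Complex.ext
  · simp [nsq]
  · simp [herm, Fin.sum_univ_five]; ring

theorem herm_self_eq_one (z : E) : herm z z = 1 ↔ nsq z = 1 := by
  rw [herm_self]; exact_mod_cast Iff.rfl

theorem nsq_smul (c : ℂ) (z : E) : nsq (c • z) = Complex.normSq c * nsq z := by
  simp [nsq_coord, Complex.normSq_apply]; ring

theorem contDiff_nsq : ContDiff ℝ (⊤ : ℕ∞) nsq := by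
  have : nsq = fun z : E => ((z 0).re ^ 2 + (z 0).im ^ 2) + ((z 1).re ^ 2 + (z 1).im ^ 2)
    + ((z 2).re ^ 2 + (z 2).im ^ 2) + ((z 3).re ^ 2 + (z 3).im ^ 2)
    + ((z 4).re ^ 2 + (z 4).im ^ 2) := funext nsq_coord
  rw [this]
  have hre : ∀ j : Fin 5, ContDiff ℝ (⊤ : ℕ∞) (fun z : E => (z j).re) := fun j =>
    Complex.reCLM.contDiff.comp (contDiff_apply ℝ ℂ j)
  have him : ∀ j : Fin 5, ContDiff ℝ (⊤ : ℕ∞) (fun z : E => (z j).im) := fun j =>
    Complex.imCLM.contDiff.comp (contDiff_apply ℝ ℂ j)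
  have h : ∀ j : Fin 5, ContDiff ℝ (⊤ : ℕ∞) (fun z : E => (z j).re ^ 2 + (z j).im ^ 2) := fun j =>
    ((hre j).pow 2).add ((him j).pow 2)
  exact ((((h 0).add (h 1)).add (h 2)).add (h 3)).add (h 4)

theorem norm_sq_le_nsq (z : E) : ‖z‖ ^ 2 ≤ nsq z := by
  have h0 : 0 ≤ nsq z := by rw [nsq_coord]; positivity
  have h : ‖z‖ ≤ Real.sqrt (nsq z) := by
    refine (pi_norm_le_iff_of_nonneg (Real.sqrt_nonneg _)).2 fun j => ?_
    apply Real.le_sqrt_of_sq_le
    rw [Complex.sq_norm, Complex.normSq_apply, nsq_coord]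
    fin_cases j <;> simp <;> nlinarith [sq_nonneg (z 0).re, sq_nonneg (z 0).im, sq_nonneg (z 1).re,
      sq_nonneg (z 1).im, sq_nonneg (z 2).re, sq_nonneg (z 2).im, sq_nonneg (z 3).re,
      sq_nonneg (z 3).im, sq_nonneg (z 4).re, sq_nonneg (z 4).im]
  calc ‖z‖ ^ 2 ≤ (Real.sqrt (nsq z)) ^ 2 := by gcongr
    _ = nsq z := Real.sq_sqrt h0

/-- the quadratic form -/
def qf (z : E) : ℂ := ∑ j, z j ^ 2

theorem mem_cone (z : E) : z ∈ unitCone ↔ nsq z = 1 ∧ qf z = 0 := by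
  simp only [unitCone, Set.mem_ofPred_eq, herm_self_eq_one, qf]

theorem nsq_add_Xf (m : E) (a : ℝ) : nsq (m + a • Xf m) = nsq m + a ^ 2 * nsq (Xf m) := by
  simp [nsq_coord, Xf]; ring

theorem qf_add_Xf (m : E) (a : ℝ) : qf (m + a • Xf m) = qf m + (a : ℂ) ^ 2 * qf (Xf m) := by
  simp [qf, Fin.sum_univ_five, Xf]; ring

/-- rotation by the angle with cosine `c` and sine `s` in the planes `01` and `23` -/
noncomputable def rot (c s : ℝ) : E →L[ℝ] E :=
  ContinuousLinearMap.id ℝ E + (c - 1) • P4 + s • L1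

theorem rot_apply (c s : ℝ) (z : E) : rot c s z = z + (c - 1) • P4 z + s • L1 z := rfl

theorem rot_rot (c s : ℝ) (h : c ^ 2 + s ^ 2 = 1) (z : E) : rot c (-s) (rot c s z) = z := by
  have h' : (c : ℂ) ^ 2 + (s : ℂ) ^ 2 = 1 := by exact_mod_cast h
  apply ext5 <;> simp [rot_apply]
  · linear_combination (z 0) * h'
  · linear_combination (z 1) * h'
  · linear_combination (z 2) * h'
  · linear_combination (z 3) * h'

theorem om_rot (c s : ℝ) (u w : E) : om (rot c s u) w = om u (rot c (-s) w) := by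
  simp [om_coord, rot_apply]; ring

theorem nsq_rot (c s : ℝ) (h : c ^ 2 + s ^ 2 = 1) (z : E) : nsq (rot c s z) = nsq z := by
  simp [nsq_coord, rot_apply]
  linear_combination (((z 0).re ^ 2 + (z 0).im ^ 2) + ((z 1).re ^ 2 + (z 1).im ^ 2)
    + ((z 2).re ^ 2 + (z 2).im ^ 2) + ((z 3).re ^ 2 + (z 3).im ^ 2)) * h

theorem qf_rot (c s : ℝ) (h : c ^ 2 + s ^ 2 = 1) (z : E) : qf (rot c s z) = qf z := by
  have h' : (c : ℂ) ^ 2 + (s : ℂ) ^ 2 = 1 := by exact_mod_cast h
  simp [qf, Fin.sum_univ_five, rot_apply]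
  linear_combination (z 0 ^ 2 + z 1 ^ 2 + z 2 ^ 2 + z 3 ^ 2) * h'

theorem rot_smul (c s : ℝ) (a : ℂ) (z : E) : rot c s (a • z) = a • rot c s z := by
  apply ext5 <;> simp [rot_apply] <;> ring

theorem rot_one_zero (z : E) : rot 1 0 z = z := by simp [rot_apply]

theorem rot_neg_one_zero (z : E) : rot (-1) 0 z = z - (2 : ℝ) • P4 z := by
  apply ext5 <;> simp [rot_apply] <;> ring

theorem L1_rot (c s : ℝ) (z : E) : L1 (rot c s z) = (-s) • P4 z + c • L1 z := by
  apply ext5 <;> simp [rot_apply] <;> ring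

end Crest.Agent.R205
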