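import Mathlib
import Crest.Agent.R205.Defs

/-!
Algebra: eigenvectors of the vector field `Xf` on the isotropic cone of `ℂ⁴`.
-/

set_option autoImplicit false

open Crest.GeometryTopology.Quadric Complex

namespace Crest.Agent.R205

theorem exists_us (ε : ℝ) :
    ∃ u s : ℝ, 0 < u ∧ 0 < s ∧ s ^ 2 = u * (1 + 2 * u) ∧
      4 * ε ^ 2 * s * (1 + u) * (1 + 2 * u) = 1 - s := by
  let f : ℝ → ℝ := fun u => 4 * ε ^ 2 * Real.sqrt (u * (1 + 2 * u)) * (1 + u) * (1 + 2 * u)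
    + Real.sqrt (u * (1 + 2 * u)) - 1
  have hf : Continuous f := by fun_prop
  have h0 : f 0 = -1 := by simp [f]
  have h1 : f (1 / 2) = 12 * ε ^ 2 := by
    have : (1 / 2 : ℝ) * (1 + 2 * (1 / 2)) = 1 := by norm_num
    simp only [f, this, Real.sqrt_one]; ring
  have := intermediate_value_Icc (by norm_num : (0 : ℝ) ≤ 1 / 2) hf.continuousOn
  obtain ⟨u, ⟨hu0, hu1⟩, hu⟩ := this (show (0 : ℝ) ∈ Set.Icc (f 0) (f (1 / 2)) by
    rw [h0, h1]; constructor <;> nlinarith [sq_nonneg ε])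
  have hu0' : 0 < u := by
    rcases hu0.lt_or_eq with h | h
    · exact h
    · rw [← h, h0] at hu; norm_num at hu
  have hpos : 0 < u * (1 + 2 * u) := by positivity
  refine ⟨u, Real.sqrt (u * (1 + 2 * u)), hu0', Real.sqrt_pos.2 hpos, Real.sq_sqrt hpos.le, ?_⟩
  simp only [f] at hu
  linarith

theorem us_not_lt (ε u s u' s' : ℝ) (hε : 0 < ε) (hu : 0 ≤ u) (hs : 0 < s) (hs' : 0 < s')
    (h1 : s ^ 2 = u * (1 + 2 * u)) (h2 : 4 * ε ^ 2 * s * (1 + u) * (1 + 2 * u) = 1 - s)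
    (h1' : s' ^ 2 = u' * (1 + 2 * u')) (h2' : 4 * ε ^ 2 * s' * (1 + u') * (1 + 2 * u') = 1 - s') :
    ¬ u < u' := by
  intro h
  have h3 : s ^ 2 < s' ^ 2 := by rw [h1, h1']; nlinarith
  have h4 : s < s' := lt_of_pow_lt_pow_left₀ 2 hs'.le h3
  have hu' : 0 ≤ u' := by linarith
  have h5 : 4 * ε ^ 2 * s * (1 + u) * (1 + 2 * u) ≤ 4 * ε ^ 2 * s' * (1 + u') * (1 + 2 * u') := by
    gcongr
  linarith

theorem us_unique (ε u s u' s' : ℝ) (hε : 0 < ε) (hu : 0 ≤ u) (hu' : 0 ≤ u') (hs : 0 < s)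
    (hs' : 0 < s')
    (h1 : s ^ 2 = u * (1 + 2 * u)) (h2 : 4 * ε ^ 2 * s * (1 + u) * (1 + 2 * u) = 1 - s)
    (h1' : s' ^ 2 = u' * (1 + 2 * u')) (h2' : 4 * ε ^ 2 * s' * (1 + u') * (1 + 2 * u') = 1 - s') :
    u = u' ∧ s = s' := by
  have a := us_not_lt ε u s u' s' hε hu hs hs' h1 h2 h1' h2'
  have b := us_not_lt ε u' s' u s hε hu' hs' hs h1' h2' h1 h2
  have c : u = u' := le_antisymm (not_lt.1 b) (not_lt.1 a)
  refine ⟨c, ?_⟩
  subst c
  exact (pow_left_inj₀ hs.le hs'.le two_ne_zero).1 (h1.trans h1'.symm)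

/-- the real system for the two moment vectors -/
theorem solve_system (ε s θ x1 x2 x3 y1 y2 y3 : ℝ) (hs : 0 < s)
    (hθ : (1 + θ ^ 2) * s = 1)
    (hx : x1 ^ 2 + x2 ^ 2 + x3 ^ 2 = s ^ 2) (hy : y1 ^ 2 + y2 ^ 2 + y3 ^ 2 = s ^ 2)
    (a1 : (1 - y1) * x3 = 0) (a3 : (1 - y1) * x1 + y2 * x2 = 0)
    (b1 : (1 - x1) * y3 = 0) (b3 : (1 - x1) * y1 + x2 * y2 = 0)
    (e : ε * ((1 - y1) * x2 - y2 * x1 + (1 - x1) * y2 - x2 * y1) = -θ * s) :
    x3 = 0 ∧ y3 = 0 ∧ y1 = x1 ∧ y2 = x2 ∧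
      ((s = 1 ∧ x1 = 1 ∧ x2 = 0) ∨
        (0 ≤ -x1 ∧ s ^ 2 = (-x1) * (1 + 2 * (-x1)) ∧ x2 ^ 2 = (-x1) * (1 + (-x1)) ∧
          4 * ε ^ 2 * s * (1 + (-x1)) * (1 + 2 * (-x1)) = 1 - s)) := by
  have hs1 : s ≤ 1 := by nlinarith [sq_nonneg θ]
  have h11 : y1 = x1 := by linarith
  subst h11
  by_cases hc : y1 = 1
  · subst hc
    have hss : s = 1 := by nlinarith [sq_nonneg x2, sq_nonneg x3]
    subst hss
    have h2 : x2 = 0 := by nlinarith [sq_nonneg x2, sq_nonneg x3]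
    have h3 : x3 = 0 := by nlinarith [sq_nonneg x2, sq_nonneg x3]
    have h4 : y2 = 0 := by nlinarith [sq_nonneg y2, sq_nonneg y3]
    have h5 : y3 = 0 := by nlinarith [sq_nonneg y2, sq_nonneg y3]
    exact ⟨h3, h5, rfl, by rw [h2, h4], Or.inl ⟨rfl, rfl, h2⟩⟩
  · have hne : 1 - y1 ≠ 0 := sub_ne_zero.2 (Ne.symm hc)
    have h3 : x3 = 0 := (mul_eq_zero.1 a1).resolve_left hne
    have h5 : y3 = 0 := (mul_eq_zero.1 b1).resolve_left hne
    subst h3 h5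
    have hlt : y1 < 1 := by
      refine lt_of_le_of_ne ?_ hc
      nlinarith [sq_nonneg x2]
    have h22 : (y2 - x2) * (y2 + x2) = 0 := by linarith
    have key : y2 = x2 := by
      rcases mul_eq_zero.1 h22 with h | h
      · linarith
      · exfalso
        have h6 : y2 = -x2 := by linarith
        subst h6
        have h7 : θ * s = 0 := by linarith
        have h8 : θ = 0 := (mul_eq_zero.1 h7).resolve_right hs.ne'
        subst h8
        have h9 : s = 1 := by linarith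
        subst h9
        apply hc
        nlinarith
    subst key
    refine ⟨rfl, rfl, rfl, rfl, Or.inr ⟨?_, by nlinarith, by nlinarith, ?_⟩⟩
    · by_contra hneg
      push Not at hneg
      nlinarith [sq_nonneg y2, mul_pos (sub_pos.2 hlt) (neg_neg_iff_pos.1 hneg)]
    · have hd : y2 ^ 2 = y1 * (y1 - 1) := by linarith
      have hs2 : s ^ 2 = y1 * (2 * y1 - 1) := by linarith
      have e2 : 2 * ε * y2 * (1 - 2 * y1) = -θ * s := by linarith
      have e3 : 4 * ε ^ 2 * y2 ^ 2 * (1 - 2 * y1) ^ 2 = s * (1 - s) := by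
        calc 4 * ε ^ 2 * y2 ^ 2 * (1 - 2 * y1) ^ 2 = (2 * ε * y2 * (1 - 2 * y1)) ^ 2 := by ring
          _ = (-θ * s) ^ 2 := by rw [e2]
          _ = s * (1 - s) := by linear_combination s * hθ
      apply mul_left_cancel₀ hs.ne'
      rw [← e3, hd]
      linear_combination (4 * ε ^ 2 * (1 - y1) * (1 - 2 * y1)) * hs2

/-- third components of the two moment vectors -/
def x3f (z : E) : ℝ := 2 * (mu z 0 3 + mu z 1 2)
def y3f (z : E) : ℝ := 2 * (mu z 0 3 - mu z 1 2)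

/-- the remaining two generators, evaluated at a point -/
def l3 (z : E) : E := ![-z 3, -z 2, z 1, z 0, 0]
def r3 (z : E) : E := ![-z 3, z 2, -z 1, z 0, 0]

theorem om_L1_Xf (m : E) : om (L1 m) (Xf m) = 2 * ((1 - mom R1 m) * x3f m) := by
  simp [Xf, om_coord, x3f, mu]; ring
theorem om_R1_Xf (m : E) : om (R1 m) (Xf m) = -2 * ((1 - mom L1 m) * y3f m) := by
  simp [Xf, om_coord, y3f, mu]; ring
theorem om_l3_Xf (m : E) :
    om (l3 m) (Xf m) = -2 * ((1 - mom R1 m) * mom L1 m + mom R2 m * mom L2 m) := by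
  simp [Xf, om_coord, l3, mom_L1, mom_L2, mom_R1, mom_R2, mu]; ring
theorem om_r3_Xf (m : E) :
    om (r3 m) (Xf m) = 2 * ((1 - mom L1 m) * mom R1 m + mom L2 m * mom R2 m) := by
  simp [Xf, om_coord, r3, mom_L1, mom_L2, mom_R1, mom_R2, mu]; ring
theorem om_Xf_self (m : E) :
    om (Xf m) m = 2 * ((1 - mom R1 m) * mom L2 m - mom R2 m * mom L1 m
      + (1 - mom L1 m) * mom R2 m - mom L2 m * mom R1 m) := by
  simp [Xf, mom]; ring

theorem om_L1_I (m : E) (θ : ℝ) : om (L1 m) ((θ * I : ℂ) • m) = 0 := by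
  simp [om_coord]; ring
theorem om_R1_I (m : E) (θ : ℝ) : om (R1 m) ((θ * I : ℂ) • m) = 0 := by
  simp [om_coord]; ring
theorem om_l3_I (m : E) (θ : ℝ) : om (l3 m) ((θ * I : ℂ) • m) = 0 := by
  simp [om_coord, l3]; ring
theorem om_r3_I (m : E) (θ : ℝ) : om (r3 m) ((θ * I : ℂ) • m) = 0 := by
  simp [om_coord, r3]; ring
theorem om_I_self (m : E) (θ : ℝ) : om ((θ * I : ℂ) • m) m = -2 * θ * nsq m := by
  simp [om_coord, nsq_coord]; ring

theorem qf_re (m : E) : (qf m).re = ((m 0).re ^ 2 - (m 0).im ^ 2) + ((m 1).re ^ 2 - (m 1).im ^ 2)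
    + ((m 2).re ^ 2 - (m 2).im ^ 2) + ((m 3).re ^ 2 - (m 3).im ^ 2)
    + ((m 4).re ^ 2 - (m 4).im ^ 2) := by
  simp [qf, Fin.sum_univ_five, pow_two]
theorem qf_im (m : E) : (qf m).im = 2 * ((m 0).re * (m 0).im + (m 1).re * (m 1).im
    + (m 2).re * (m 2).im + (m 3).re * (m 3).im + (m 4).re * (m 4).im) := by
  simp [qf, Fin.sum_univ_five, pow_two]; ring

theorem x_norm (m : E) (h4 : m 4 = 0) :
    mom L1 m ^ 2 + mom L2 m ^ 2 + x3f m ^ 2 = nsq m ^ 2 - (qf m).re ^ 2 - (qf m).im ^ 2 := by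
  simp only [mom_L1, mom_L2, x3f, mu, nsq_coord, qf_re, qf_im, h4, zero_re, zero_im]; ring
theorem y_norm (m : E) (h4 : m 4 = 0) :
    mom R1 m ^ 2 + mom R2 m ^ 2 + y3f m ^ 2 = nsq m ^ 2 - (qf m).re ^ 2 - (qf m).im ^ 2 := by
  simp only [mom_R1, mom_R2, y3f, mu, nsq_coord, qf_re, qf_im, h4, zero_re, zero_im]; ring

/-- the model vectors -/
noncomputable def vec (s c d : ℝ) : E := ![s, I * c, I * d, 0, 0]

@[simp] theorem vec_0 (s c d : ℝ) : vec s c d 0 = s := rfl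
@[simp] theorem vec_1 (s c d : ℝ) : vec s c d 1 = I * c := rfl
@[simp] theorem vec_2 (s c d : ℝ) : vec s c d 2 = I * d := rfl
@[simp] theorem vec_3 (s c d : ℝ) : vec s c d 3 = 0 := rfl
@[simp] theorem vec_4 (s c d : ℝ) : vec s c d 4 = 0 := rfl

theorem eig1 (m : E) (h4 : m 4 = 0) :
    -(mu m 0 1 : ℂ) * m 0 + mu m 1 2 * m 2 + mu m 1 3 * m 3 =
      I * nsq m / 2 * m 1 - I / 2 * qf m * starRingEnd ℂ (m 1) := by
  apply Complex.ext <;> simp [mu, nsq_coord, qf_re, qf_im, h4, pow_two] <;> ring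
theorem eig2 (m : E) (h4 : m 4 = 0) :
    -(mu m 0 2 : ℂ) * m 0 - mu m 1 2 * m 1 + mu m 2 3 * m 3 =
      I * nsq m / 2 * m 2 - I / 2 * qf m * starRingEnd ℂ (m 2) := by
  apply Complex.ext <;> simp [mu, nsq_coord, qf_re, qf_im, h4, pow_two] <;> ring
theorem eig3 (m : E) (h4 : m 4 = 0) :
    -(mu m 0 3 : ℂ) * m 0 - mu m 1 3 * m 1 - mu m 2 3 * m 2 =
      I * nsq m / 2 * m 3 - I / 2 * qf m * starRingEnd ℂ (m 3) := by
  apply Complex.ext <;> simp [mu, nsq_coord, qf_re, qf_im, h4, pow_two] <;> ring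

theorem smul_eq_vec (m : E) (h4 : m 4 = 0) (hq : qf m = 0) (hx3 : x3f m = 0) (hy3 : y3f m = 0)
    (h1 : mom R1 m = mom L1 m) (h2 : mom R2 m = mom L2 m) :
    (nsq m : ℂ) • m = m 0 • vec (nsq m) (mom L1 m) (mom L2 m) := by
  have e1 := eig1 m h4
  have e2 := eig2 m h4
  have e3 := eig3 m h4
  simp only [x3f, y3f, mom_L1, mom_L2, mom_R1, mom_R2] at hx3 hy3 h1 h2 ⊢
  have a03 : mu m 0 3 = 0 := by linarith
  have a12 : mu m 1 2 = 0 := by linarith
  have a23 : mu m 2 3 = 0 := by linarith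
  have a13 : mu m 1 3 = 0 := by linarith
  rw [hq] at e1 e2 e3
  simp only [a03, a12, a23, a13, ofReal_zero] at e1 e2 e3 ⊢
  apply ext5 <;> simp
  · ring
  · linear_combination (2 * I) * e1 + (nsq m : ℂ) * m 1 * I_mul_I
  · linear_combination (2 * I) * e2 + (nsq m : ℂ) * m 2 * I_mul_I
  · have : (nsq m : ℂ) * m 3 = 0 := by
      linear_combination (2 * I) * e3 + (nsq m : ℂ) * m 3 * I_mul_I
    simpa using this
  · exact Or.inr h4

/-- classification of the eigenvectors -/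
theorem eigen_classify (ε θ : ℝ) (hε : 0 < ε) (m : E) (h4 : m 4 = 0) (hq : qf m = 0)
    (hθ : (1 + θ ^ 2) * nsq m = 1) (hX : ε • Xf m = (θ * I : ℂ) • m) :
    (nsq m : ℂ) • m = m 0 • vec (nsq m) (mom L1 m) (mom L2 m) ∧
      ((nsq m = 1 ∧ mom L1 m = 1 ∧ mom L2 m = 0) ∨
        (0 ≤ -mom L1 m ∧ nsq m ^ 2 = (-mom L1 m) * (1 + 2 * (-mom L1 m)) ∧
          mom L2 m ^ 2 = (-mom L1 m) * (1 + (-mom L1 m)) ∧
          4 * ε ^ 2 * nsq m * (1 + (-mom L1 m)) * (1 + 2 * (-mom L1 m)) = 1 - nsq m)) := by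
  have hs : 0 < nsq m := by
    by_contra h
    push Not at h
    nlinarith [sq_nonneg θ]
  have hx := x_norm m h4
  have hy := y_norm m h4
  rw [hq] at hx hy
  simp only [zero_re, zero_im] at hx hy
  have a1 : ε * om (L1 m) (Xf m) = 0 := by
    rw [← smul_eq_mul, ← map_smul, hX, om_L1_I]
  have a3 : ε * om (l3 m) (Xf m) = 0 := by
    rw [← smul_eq_mul, ← map_smul, hX, om_l3_I]
  have b1 : ε * om (R1 m) (Xf m) = 0 := by
    rw [← smul_eq_mul, ← map_smul, hX, om_R1_I]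
  have b3 : ε * om (r3 m) (Xf m) = 0 := by
    rw [← smul_eq_mul, ← map_smul, hX, om_r3_I]
  have e : ε * om (Xf m) m = -2 * θ * nsq m := by
    rw [← om_I_self, ← hX]; simp
  replace a1 := (mul_eq_zero.1 a1).resolve_left hε.ne'
  replace a3 := (mul_eq_zero.1 a3).resolve_left hε.ne'
  replace b1 := (mul_eq_zero.1 b1).resolve_left hε.ne'
  replace b3 := (mul_eq_zero.1 b3).resolve_left hε.ne'
  rw [om_L1_Xf] at a1
  rw [om_l3_Xf] at a3
  rw [om_R1_Xf] at b1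
  rw [om_r3_Xf] at b3
  rw [om_Xf_self] at e
  obtain ⟨k1, k2, k3, k4, k5⟩ := solve_system ε (nsq m) θ (mom L1 m) (mom L2 m) (x3f m)
    (mom R1 m) (mom R2 m) (y3f m) hs hθ (by linarith) (by linarith) (by linarith) (by linarith)
    (by linarith) (by linarith) (by linarith)
  exact ⟨smul_eq_vec m h4 hq k1 k2 k3 k4, k5⟩

/-- the model vectors are eigenvectors -/
theorem Xf_vec (ε ρ s c d θ : ℝ) (hρ : 2 * ρ ^ 2 * s = 1)
    (h1 : 2 * ε * d * (2 * c - 1) = θ * s) (h2 : 2 * ε * d * s = θ * c)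
    (h3 : 2 * ε * (1 - c) * s = -θ * d) :
    ε • Xf (ρ • vec s c d) = (θ * I : ℂ) • (ρ • vec s c d) := by
  have a1 : mom L1 (ρ • vec s c d) = c := by
    simp [mom_L1, mu]; linear_combination c * hρ
  have a2 : mom R1 (ρ • vec s c d) = c := by
    simp [mom_R1, mu]; linear_combination c * hρ
  have a3 : mom L2 (ρ • vec s c d) = d := by
    simp [mom_L2, mu]; linear_combination d * hρ
  have a4 : mom R2 (ρ • vec s c d) = d := by
    simp [mom_R2, mu]; linear_combination d * hρ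
  have h1' : (2 * ε * d * (2 * c - 1) : ℂ) = θ * s := by exact_mod_cast h1
  have h2' : (2 * ε * d * s : ℂ) = θ * c := by exact_mod_cast h2
  have h3' : (2 * ε * (1 - c) * s : ℂ) = -θ * d := by exact_mod_cast h3
  rw [Xf, a1, a2, a3, a4]
  apply ext5 <;> simp
  · linear_combination (ρ * I) * h1'
  · linear_combination (-ρ) * h2' - ρ * θ * c * I_mul_I
  · linear_combination ρ * h3' - ρ * θ * d * I_mul_I
  · ring

end Crest.Agent.R205
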