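import Mathlib
import Crest.Agent.R205.Defs
import Crest.Agent.R205.Inverse

/-!
The implicit midpoint maps of the Hamiltonian `Fh` and the Hamiltonian isotopy built from them.
-/

set_option autoImplicit false

open Crest.GeometryTopology.Quadric Real Filter Topology

namespace Crest.Agent.R205

noncomputable def bump : ContDiffBump (0 : ℝ) := ⟨2, 3, by norm_num, by norm_num⟩

theorem bump_one {x : ℝ} (h : |x| ≤ 2) : bump x = 1 :=
  bump.one_of_mem_closedBall (by simpa [bump, Real.dist_eq] using h)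

theorem bump_zero {x : ℝ} (h : 3 ≤ |x|) : bump x = 0 :=
  bump.zero_of_le_dist (by simpa [bump, Real.dist_eq] using h)

/-- the cut-off vector field -/
noncomputable def Xt (m : E) : E := bump (nsq m) • Xf m

/-- the cut-off time -/
noncomputable def chi (t : ℝ) : ℝ := t * bump t

theorem contDiff_chi : ContDiff ℝ (⊤ : ℕ∞) chi := contDiff_id.mul bump.contDiff

theorem chi_zero : chi 0 = 0 := by simp [chi]
theorem chi_one : chi 1 = 1 := by simp [chi, bump_one]

theorem contDiff_Xt : ContDiff ℝ (⊤ : ℕ∞) Xt :=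
  (bump.contDiff.comp contDiff_nsq).smul contDiff_Xf

theorem nsq_nonneg (z : E) : 0 ≤ nsq z := by rw [nsq_coord]; positivity

theorem Xt_eq {m : E} (h : nsq m ≤ 2) : Xt m = Xf m := by
  rw [Xt, bump_one (by rw [abs_of_nonneg (nsq_nonneg m)]; exact h), one_smul]

theorem Xt_eventuallyEq {m : E} (h : nsq m ≤ 1) : Xt =ᶠ[𝓝 m] Xf := by
  have : ∀ᶠ x in 𝓝 m, nsq x < 2 :=
    contDiff_nsq.continuous.continuousAt.eventually_lt continuousAt_const (by linarith)
  filter_upwards [this] with x hx using Xt_eq hx.le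

theorem Xt_smul (c : ℂ) (hc : ‖c‖ = 1) (z : E) : Xt (c • z) = c • Xt z := by
  rw [Xt, Xt, nsq_smul, normSq_of_norm hc, one_mul, Xf_smul c hc, smul_comm]

theorem nsq_add_Xt (m : E) (a : ℝ) : nsq (m + a • Xt m) = nsq m + a ^ 2 * nsq (Xt m) := by
  rw [Xt, smul_smul, nsq_add_Xf]
  have := nsq_smul (bump (nsq m) : ℝ) (Xf m)
  rw [Complex.coe_smul, Complex.normSq_ofReal] at this
  rw [this]; ring

theorem qf_add_Xt (m : E) (a : ℝ) : qf (m + a • Xt m) = qf (m - a • Xt m) := by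
  rw [sub_eq_add_neg, ← neg_smul, Xt, smul_smul, smul_smul, qf_add_Xf, qf_add_Xf]
  push_cast; ring

/-- The two smooth families of inverse maps. -/
structure Data where
  ε : ℝ
  ε_pos : 0 < ε
  Mp : ℝ × E → E
  Mm : ℝ × E → E
  smooth_Mp : ContDiff ℝ (⊤ : ℕ∞) Mp
  smooth_Mm : ContDiff ℝ (⊤ : ℕ∞) Mm
  Mp_left : ∀ t m, Mp (t, m + (ε * chi t) • Xt m) = m
  Mp_right : ∀ t z, Mp (t, z) + (ε * chi t) • Xt (Mp (t, z)) = z
  Mm_left : ∀ t m, Mm (t, m - (ε * chi t) • Xt m) = m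
  Mm_right : ∀ t z, Mm (t, z) - (ε * chi t) • Xt (Mm (t, z)) = z

theorem nonempty_data : Nonempty Data := by
  let G0 : ℝ × E → E := fun p => chi p.1 • Xt p.2
  have hG0 : ContDiff ℝ (⊤ : ℕ∞) G0 :=
    (contDiff_chi.comp contDiff_fst).smul (contDiff_Xt.comp contDiff_snd)
  have hsupp : HasCompactSupport G0 := by
    refine HasCompactSupport.intro (isCompact_closedBall (0 : ℝ × E) 3) fun p hp => ?_
    rw [mem_closedBall_zero_iff, Prod.norm_def, not_le, lt_max_iff] at hp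
    rcases hp with hp | hp
    · simp [G0, chi, bump_zero (x := p.1) (by simpa using hp.le)]
    · have h1 := norm_sq_le_nsq p.2
      have h2 : 3 ≤ |nsq p.2| := by
        rw [abs_of_nonneg (nsq_nonneg _)]; nlinarith
      simp [G0, Xt, bump_zero h2]
  obtain ⟨K, hK⟩ := ContDiff.lipschitzWith_of_hasCompactSupport hsupp hG0 (by simp)
  let ε : ℝ := 1 / (2 * (K + 1))
  have hε : 0 < ε := by positivity
  have hc : ‖ε‖₊ * K < 1 := by
    rw [← NNReal.coe_lt_coe]
    simp only [NNReal.coe_mul, coe_nnnorm, Real.norm_eq_abs, abs_of_pos hε, NNReal.coe_one, ε]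
    rw [div_mul_eq_mul_div, div_lt_one (by positivity)]
    have := K.coe_nonneg
    linarith
  have hLp : LipschitzWith (‖ε‖₊ * K) (fun p : ℝ × E => ε • G0 p) :=
    (lipschitzWith_smul ε).comp hK
  have hLm : LipschitzWith (‖ε‖₊ * K) (fun p : ℝ × E => -(ε • G0 p)) := hLp.neg
  obtain ⟨Mp, h1, h2, h3⟩ := exists_param_inverse _ (hG0.const_smul ε) _ hc hLp
  obtain ⟨Mm, h4, h5, h6⟩ := exists_param_inverse _ (hG0.const_smul ε).neg _ hc hLm
  refine ⟨⟨ε, hε, Mp, Mm, h1, h4, fun t m => ?_, fun t z => ?_, fun t m => ?_, fun t z => ?_⟩⟩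
  · simpa [G0, smul_smul] using h2 t m
  · simpa [G0, smul_smul] using h3 t z
  · simpa [G0, smul_smul, sub_eq_add_neg] using h5 t m
  · simpa [G0, smul_smul, sub_eq_add_neg] using h6 t z

namespace Data

variable (D : Data)

/-- the time step -/
noncomputable def σ (t : ℝ) : ℝ := D.ε * chi t

theorem contDiff_σ : ContDiff ℝ (⊤ : ℕ∞) D.σ := contDiff_const.mul contDiff_chi

/-- the midpoint map -/
noncomputable def Φ (p : ℝ × E) : E := (2 : ℝ) • D.Mm p - p.2

theorem contDiff_Φ : ContDiff ℝ (⊤ : ℕ∞) D.Φ := (D.smooth_Mm.const_smul (2 : ℝ)).sub contDiff_snd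

theorem Φ_eq (t : ℝ) (z : E) : D.Φ (t, z) = D.Mm (t, z) + D.σ t • Xt (D.Mm (t, z)) := by
  have := D.Mm_right t z
  simp only [Φ, σ]
  conv_lhs => rw [← this]
  rw [D.Mm_left]
  module

theorem Mp_Φ (t : ℝ) (z : E) : D.Mp (t, D.Φ (t, z)) = D.Mm (t, z) := by
  rw [Φ_eq]; exact D.Mp_left _ _

theorem nsq_eq (t : ℝ) (z : E) :
    nsq z = nsq (D.Mm (t, z)) + (D.σ t) ^ 2 * nsq (Xt (D.Mm (t, z))) := by
  have := D.Mm_right t z
  conv_lhs => rw [← this]
  rw [sub_eq_add_neg, ← neg_smul, nsq_add_Xt, σ]; ring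

theorem nsq_Φ (t : ℝ) (z : E) : nsq (D.Φ (t, z)) = nsq z := by
  rw [Φ_eq, nsq_add_Xt, D.nsq_eq t z]

theorem qf_Φ (t : ℝ) (z : E) : qf (D.Φ (t, z)) = qf z := by
  rw [Φ_eq, qf_add_Xt, σ, D.Mm_right]

theorem nsq_Mm_le (t : ℝ) (z : E) : nsq (D.Mm (t, z)) ≤ nsq z := by
  rw [D.nsq_eq t z]
  have := nsq_nonneg (Xt (D.Mm (t, z)))
  nlinarith [sq_nonneg (D.σ t)]

theorem Mm_smul (t : ℝ) (c : ℂ) (hc : ‖c‖ = 1) (z : E) : D.Mm (t, c • z) = c • D.Mm (t, z) := by
  have h := D.Mm_left t (c • D.Mm (t, z))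
  rw [Xt_smul c hc, smul_comm, ← smul_sub, D.Mm_right] at h
  exact h

theorem Mp_smul (t : ℝ) (c : ℂ) (hc : ‖c‖ = 1) (z : E) : D.Mp (t, c • z) = c • D.Mp (t, z) := by
  have h := D.Mp_left t (c • D.Mp (t, z))
  rw [Xt_smul c hc, smul_comm, ← smul_add, D.Mp_right] at h
  exact h

theorem Φ_smul (t : ℝ) (c : ℂ) (hc : ‖c‖ = 1) (z : E) : D.Φ (t, c • z) = c • D.Φ (t, z) := by
  simp only [Φ, D.Mm_smul t c hc, smul_sub]
  rw [smul_comm]

theorem Φ_zero (z : E) : D.Φ (0, z) = z := by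
  have h := D.Mm_right 0 z
  rw [Φ_eq]
  simp only [σ, chi_zero, mul_zero, zero_smul, sub_zero, add_zero] at h ⊢
  exact h

/-- the Hamiltonian of the family of midpoint maps -/
noncomputable def K (p : ℝ × E) : ℝ := 2 * deriv D.σ p.1 * Fh (D.Mp p)

theorem contDiff_K : ContDiff ℝ (⊤ : ℕ∞) D.K := by
  have h : ContDiff ℝ (⊤ : ℕ∞) (deriv D.σ) := D.contDiff_σ.iterate_deriv 1
  exact (contDiff_const.mul (h.comp contDiff_fst)).mul (contDiff_Fh.comp D.smooth_Mp)

theorem midpoint_hamilton (t : ℝ) (z : E) (hz : nsq z ≤ 1) :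
    ∃ V : E, HasDerivAt (fun s => D.Φ (s, z)) V t ∧
      HasFDerivAt (fun Z => D.K (t, Z)) (om V) (D.Φ (t, z)) := by
  set m := D.Mm (t, z) with hm
  have hmle : nsq m ≤ 1 := (D.nsq_Mm_le t z).trans hz
  obtain ⟨B, hB, hBs⟩ := exists_hasFDerivAt_Xf m
  have hBt : HasFDerivAt Xt B m := hB.congr_of_eventuallyEq (Xt_eventuallyEq hmle)
  have hσ : HasDerivAt D.σ (deriv D.σ t) t :=
    (D.contDiff_σ.differentiable (by simp) t).hasDerivAt
  set σ' := deriv D.σ t
  -- time derivative of the midpoint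
  have hd : DifferentiableAt ℝ (fun s => D.Mm (s, z)) t :=
    ((D.smooth_Mm.differentiable (by simp)).comp
      (differentiable_id.prodMk (differentiable_const z))) t
  set md := deriv (fun s => D.Mm (s, z)) t
  have hmd : HasDerivAt (fun s => D.Mm (s, z)) md t := hd.hasDerivAt
  have h1 : HasDerivAt (fun s => D.Mm (s, z) - D.σ s • Xt (D.Mm (s, z)))
      (md - (D.σ t • B md + σ' • Xt m)) t :=
    hmd.sub (hσ.smul (HasFDerivAt.comp_hasDerivAt (f := fun s => D.Mm (s, z)) t hBt hmd))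
  have h2 : (fun s => D.Mm (s, z) - D.σ s • Xt (D.Mm (s, z))) = fun _ => z :=
    funext fun s => D.Mm_right s z
  rw [h2] at h1
  have h3 : md - (D.σ t • B md + σ' • Xt m) = 0 := h1.unique (hasDerivAt_const t z)
  -- space derivative of `Mp`
  have hZ : D.Mp (t, D.Φ (t, z)) = m := D.Mp_Φ t z
  have hd2 : DifferentiableAt ℝ (fun Y => D.Mp (t, Y)) (D.Φ (t, z)) :=
    ((D.smooth_Mp.differentiable (by simp)).comp
      ((differentiable_const t).prodMk differentiable_id)) _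
  set A := fderiv ℝ (fun Y => D.Mp (t, Y)) (D.Φ (t, z))
  have hA : HasFDerivAt (fun Y => D.Mp (t, Y)) A (D.Φ (t, z)) := hd2.hasFDerivAt
  have hBt' : HasFDerivAt Xt B (D.Mp (t, D.Φ (t, z))) := by rw [hZ]; exact hBt
  have h4 : HasFDerivAt (fun Y => D.Mp (t, Y) + D.σ t • Xt (D.Mp (t, Y)))
      (A + D.σ t • B.comp A) (D.Φ (t, z)) :=
    hA.add ((HasFDerivAt.comp (f := fun Y => D.Mp (t, Y)) _ hBt' hA).const_smul (D.σ t))
  have h5 : (fun Y => D.Mp (t, Y) + D.σ t • Xt (D.Mp (t, Y))) = fun Y => Y :=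
    funext fun Y => D.Mp_right t Y
  rw [h5] at h4
  have h6 : A + D.σ t • B.comp A = ContinuousLinearMap.id ℝ E := h4.unique (hasFDerivAt_id _)
  have hF : HasFDerivAt Fh (om (Xt m)) (D.Mp (t, D.Φ (t, z))) := by
    rw [hZ, Xt_eq (hmle.trans (by norm_num))]; exact hasFDerivAt_Fh m
  refine ⟨(2 : ℝ) • md, ?_, ?_⟩
  · exact (hmd.const_smul (2 : ℝ)).sub_const z
  · have h7 := (HasFDerivAt.comp (f := fun Y => D.Mp (t, Y)) _ hF hA).const_mul (2 * σ')
    refine h7.congr_fderiv ?_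
    ext W
    have h8 : A W + D.σ t • B (A W) = W := by
      simpa using congrArg (fun T : E →L[ℝ] E => T W) h6
    have h9 : σ' • Xt m = md - D.σ t • B md := by
      rw [← sub_eq_zero, ← neg_eq_zero, ← h3]; abel
    have h10 : σ' * om (Xt m) (A W) = om md (A W) - D.σ t * om (B md) (A W) := by
      have := congrArg (fun u => om u (A W)) h9
      simpa using this
    have h11 : om md W = om md (A W) + D.σ t * om md (B (A W)) := by
      conv_lhs => rw [← h8]
      simp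
    have h12 : om md (B (A W)) = - om (B md) (A W) := by
      rw [om_swap, hBs]
    simp only [smul_apply, ContinuousLinearMap.comp_apply, smul_eq_mul,
      map_smul]
    rw [h11, h12]
    linear_combination 2 * h10

/-- the isotopy -/
noncomputable def Ψ (p : ℝ × E) : E := rot (cos (π * p.1)) (sin (π * p.1)) (D.Φ p)

/-- its Hamiltonian -/
noncomputable def H (p : ℝ × E) : ℝ :=
  π * mom L1 p.2 + D.K (p.1, rot (cos (π * p.1)) (-sin (π * p.1)) p.2)

theorem contDiff_rot {f g : ℝ × E → ℝ} {u : ℝ × E → E} (hf : ContDiff ℝ (⊤ : ℕ∞) f)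
    (hg : ContDiff ℝ (⊤ : ℕ∞) g) (hu : ContDiff ℝ (⊤ : ℕ∞) u) :
    ContDiff ℝ (⊤ : ℕ∞) (fun p => rot (f p) (g p) (u p)) := by
  simp only [rot_apply]
  exact (hu.add ((hf.sub contDiff_const).smul (P4.contDiff.comp hu))).add
    (hg.smul (L1.contDiff.comp hu))

theorem contDiff_Ψ : ContDiff ℝ (⊤ : ℕ∞) D.Ψ :=
  contDiff_rot (contDiff_cos.comp (contDiff_const.mul contDiff_fst))
    (contDiff_sin.comp (contDiff_const.mul contDiff_fst)) D.contDiff_Φ

theorem contDiff_H : ContDiff ℝ (⊤ : ℕ∞) D.H :=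
  (contDiff_const.mul ((contDiff_mom L1).comp contDiff_snd)).add
    (D.contDiff_K.comp (contDiff_fst.prodMk
      (contDiff_rot (contDiff_cos.comp (contDiff_const.mul contDiff_fst))
        (contDiff_sin.comp (contDiff_const.mul contDiff_fst)).neg contDiff_snd)))

theorem hamilton (t : ℝ) (z : E) (hz : nsq z ≤ 1) (w : E) :
    om (deriv (fun s : ℝ => D.Ψ (s, z)) t) w =
      fderiv ℝ (fun x : E => D.H (t, x)) (D.Ψ (t, z)) w := by
  obtain ⟨V, hV, hK⟩ := D.midpoint_hamilton t z hz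
  set c := cos (π * t) with hc
  set s := sin (π * t) with hs
  have hcs : c ^ 2 + s ^ 2 = 1 := cos_sq_add_sin_sq _
  have hcos : HasDerivAt (fun τ => cos (π * τ) - 1) (-(π * s)) t := by
    have := (((hasDerivAt_id t).const_mul π).cos).sub_const 1
    refine this.congr_deriv ?_
    simp [hs, mul_comm]
  have hsin : HasDerivAt (fun τ => sin (π * τ)) (π * c) t := by
    have := ((hasDerivAt_id t).const_mul π).sin
    refine this.congr_deriv ?_
    simp [hc, mul_comm]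
  have h1 : HasDerivAt (fun τ => D.Ψ (τ, z)) (rot c s V + π • L1 (D.Ψ (t, z))) t := by
    have := (hV.add (hcos.smul (P4.hasFDerivAt.comp_hasDerivAt t hV))).add
      (hsin.smul (L1.hasFDerivAt.comp_hasDerivAt t hV))
    refine this.congr_deriv ?_
    simp only [Ψ, L1_rot]
    simp only [rot_apply, Function.comp]
    module
  have hΨ : rot c (-s) (D.Ψ (t, z)) = D.Φ (t, z) := rot_rot c s hcs _
  have hK' : HasFDerivAt (fun Z => D.K (t, Z)) (om V) (rot c (-s) (D.Ψ (t, z))) := by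
    rw [hΨ]; exact hK
  have h2 : HasFDerivAt (fun x : E => D.H (t, x))
      (π • om (L1 (D.Ψ (t, z))) + (om V).comp (rot c (-s))) (D.Ψ (t, z)) :=
    ((hasFDerivAt_mom L1 om_L1 _).const_mul π).add (hK'.comp _ (rot c (-s)).hasFDerivAt)
  rw [h1.deriv, h2.fderiv]
  simp [om_rot]
  ring

/-- the Hamiltonian isotopy of the quadric -/
noncomputable def lift : HamiltonianConeLift where
  Ψ := D.Ψ
  H := D.H
  smooth_Ψ := D.contDiff_Ψ
  smooth_H := D.contDiff_H
  mapsTo_cone := by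
    intro t z hz
    rw [mem_cone] at hz ⊢
    simp only [Ψ]
    rw [nsq_rot _ _ (cos_sq_add_sin_sq _), qf_rot _ _ (cos_sq_add_sin_sq _), nsq_Φ, qf_Φ]
    exact hz
  compatible := by
    intro t z _ c hc
    exact ⟨c, by simp only [Ψ]; rw [D.Φ_smul t c hc, rot_smul]⟩
  start := by
    intro z _
    exact ⟨1, by simp [Ψ, Φ_zero, rot_one_zero]⟩
  invariant := by
    intro t z _ c hc
    simp only [H, K]
    rw [rot_smul, D.Mp_smul t c hc, Fh_smul c hc, mom_L1, mom_L1, mu_smul, mu_smul,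
      normSq_of_norm hc, one_mul, one_mul]
  hamilton := by
    intro t _ z hz w _
    rw [mem_cone] at hz
    exact D.hamilton t z hz.1.le w

theorem Ψ_one (z : E) : D.Ψ (1, z) = D.Φ (1, z) - (2 : ℝ) • P4 (D.Φ (1, z)) := by
  simp [Ψ, rot_neg_one_zero]

theorem σ_one : D.σ 1 = D.ε := by simp [σ, chi_one]

end Data

end Crest.Agent.R205
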