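import Mathlib
import Crest.Agent.R205.Flow
import Crest.Agent.R205.Alg

/-!
The fixed lines of the time-one map.
-/

set_option autoImplicit false

open Crest.GeometryTopology.Quadric Complex

namespace Crest.Agent.R205

theorem Xf_four (m : E) : Xf m 4 = 0 := by simp [Xf]

theorem Xf_of_zero (m : E) (h0 : m 0 = 0) (h1 : m 1 = 0) (h2 : m 2 = 0) (h3 : m 3 = 0) :
    Xf m = 0 := by
  apply ext5 <;> simp [Xf, h0, h1, h2, h3]

theorem re_herm_Xf (m : E) : (herm m (Xf m)).re = 0 := by
  simp [herm, Fin.sum_univ_five, Xf]; ring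

theorem qf_smul (c : ℂ) (z : E) : qf (c • z) = c ^ 2 * qf z := by
  simp [qf, Fin.sum_univ_five]; ring

theorem nsq_zero : nsq (0 : E) = 0 := by simp [nsq_coord]

namespace Data

variable (D : Data)

theorem fixed_forward (z : E) (hz : z ∈ unitCone) (c : ℂ) (hc : c • z = D.Ψ (1, z)) :
    ∃ (m : E) (θ : ℝ), m 4 = 0 ∧ qf m = 0 ∧ (1 + θ ^ 2) * nsq m = 1 ∧
      D.ε • Xf m = (θ * I : ℂ) • m ∧ z = (1 - θ * I : ℂ) • m := by
  rw [mem_cone] at hz
  obtain ⟨hz1, hz2⟩ := hz
  set m := D.Mm (1, z) with hm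
  have hmle : nsq m ≤ 2 := ((D.nsq_Mm_le 1 z).trans hz1.le).trans (by norm_num)
  have hzm : m - D.ε • Xf m = z := by
    have := D.Mm_right 1 z
    rwa [chi_one, mul_one, Xt_eq hmle] at this
  have hZ : D.Φ (1, z) = m + D.ε • Xf m := by
    rw [D.Φ_eq, σ_one, Xt_eq hmle]
  rw [Ψ_one, hZ] at hc
  have c0 := congrFun hc 0
  have c1 := congrFun hc 1
  have c2 := congrFun hc 2
  have c3 := congrFun hc 3
  have c4 := congrFun hc 4
  have z0 := congrFun hzm 0
  have z1 := congrFun hzm 1
  have z2 := congrFun hzm 2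
  have z3 := congrFun hzm 3
  have z4 := congrFun hzm 4
  simp only [Pi.smul_apply, Pi.sub_apply, Pi.add_apply, smul_eq_mul, real_smul, P4_0, P4_1, P4_2,
    P4_3, P4_4, Xf_four, mul_zero, add_zero, sub_zero, ofReal_ofNat] at c0 c1 c2 c3 c4 z0 z1 z2 z3 z4
  have h4 : z 4 = 0 := by
    by_contra h
    have hc1 : c = 1 := by
      apply mul_right_cancel₀ h
      rw [c4, z4, one_mul]
    subst hc1
    have m0 : m 0 = 0 := by linear_combination (c0 + z0) / 2
    have m1 : m 1 = 0 := by linear_combination (c1 + z1) / 2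
    have m2 : m 2 = 0 := by linear_combination (c2 + z2) / 2
    have m3 : m 3 = 0 := by linear_combination (c3 + z3) / 2
    have hX := Xf_of_zero m m0 m1 m2 m3
    simp only [hX, Pi.zero_apply, mul_zero, sub_zero, m0, m1, m2, m3] at z0 z1 z2 z3
    simp only [qf, Fin.sum_univ_five, ← z0, ← z1, ← z2, ← z3] at hz2
    apply h
    simpa using hz2
  have m4 : m 4 = 0 := by rw [z4, h4]
  have hc1 : 1 - c ≠ 0 := by
    intro h
    have hc1 : c = 1 := (sub_eq_zero.1 h).symm
    subst hc1
    have m0 : m 0 = 0 := by linear_combination (c0 + z0) / 2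
    have m1 : m 1 = 0 := by linear_combination (c1 + z1) / 2
    have m2 : m 2 = 0 := by linear_combination (c2 + z2) / 2
    have m3 : m 3 = 0 := by linear_combination (c3 + z3) / 2
    have hX := Xf_of_zero m m0 m1 m2 m3
    have hm0 : m = 0 := by apply ext5 <;> simp [m0, m1, m2, m3, m4]
    rw [hX, hm0] at hzm
    rw [← hzm] at hz1
    simp [nsq_zero] at hz1
  set κ : ℂ := -(1 + c) / (1 - c) with hκ
  have hκ' : κ * (1 - c) = -(1 + c) := by rw [hκ]; field_simp
  have hX : D.ε • Xf m = κ • m := by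
    apply ext5 <;> simp only [Pi.smul_apply, smul_eq_mul, real_smul] <;>
      apply mul_right_cancel₀ hc1
    · linear_combination -(m 0) * hκ' + c0 + c * z0
    · linear_combination -(m 1) * hκ' + c1 + c * z1
    · linear_combination -(m 2) * hκ' + c2 + c * z2
    · linear_combination -(m 3) * hκ' + c3 + c * z3
    · simp [Xf_four, m4]
  have hzκ : z = (1 - κ) • m := by rw [← hzm, hX, sub_smul, one_smul]
  have hn : normSq (1 - κ) * nsq m = 1 := by rw [← nsq_smul, ← hzκ, hz1]
  have hs : nsq m ≠ 0 := by intro h; rw [h] at hn; simp at hn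
  have hre : κ.re = 0 := by
    have h1 : (herm m (D.ε • Xf m)).re = D.ε * (herm m (Xf m)).re := by
      simp [herm, Fin.sum_univ_five]; ring
    have h2 : (herm m (κ • m)).re = κ.re * nsq m := by
      simp [herm, Fin.sum_univ_five, nsq_coord]; ring
    rw [hX, h2, re_herm_Xf, mul_zero] at h1
    exact (mul_eq_zero.1 h1).resolve_right hs
  have hκθ : κ = (κ.im : ℂ) * I := by
    apply Complex.ext <;> simp [hre]
  have hne : 1 - κ ≠ 0 := by intro h; rw [h] at hn; simp at hn
  refine ⟨m, κ.im, m4, ?_, ?_, by rw [← hκθ, hX], by rw [← hκθ, ← hzκ]⟩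
  · rw [hzκ, qf_smul] at hz2
    exact (mul_eq_zero.1 hz2).resolve_left (pow_ne_zero 2 hne)
  · rw [normSq_apply] at hn
    simp only [sub_re, one_re, hre, sub_zero, mul_one, sub_im, one_im, zero_sub, neg_mul_neg] at hn
    linear_combination hn

theorem fixed_backward (s c d θ : ℝ) (hs : 0 < s) (hcd : c ^ 2 + d ^ 2 = s ^ 2)
    (hθ : (1 + θ ^ 2) * s = 1)
    (h1 : 2 * D.ε * d * (2 * c - 1) = θ * s) (h2 : 2 * D.ε * d * s = θ * c)
    (h3 : 2 * D.ε * (1 - c) * s = -θ * d) :
    Submodule.span ℂ {vec s c d} ∈ fixedLines D.lift := by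
  set ρ : ℝ := Real.sqrt (1 / (2 * s)) with hρdef
  have hρ : 2 * ρ ^ 2 * s = 1 := by
    rw [hρdef, Real.sq_sqrt (by positivity)]; field_simp
  have hρ0 : ρ ≠ 0 := by intro h; rw [h] at hρ; simp at hρ
  set m : E := ρ • vec s c d with hm
  have hX := Xf_vec D.ε ρ s c d θ hρ h1 h2 h3
  rw [← hm] at hX
  have hns : nsq m = s := by
    simp [hm, nsq_coord]
    linear_combination s * hρ + ρ ^ 2 * hcd
  have hs1 : s ≤ 1 := by nlinarith [sq_nonneg θ]
  have hq : qf m = 0 := by
    have hcd' : (c : ℂ) ^ 2 + (d : ℂ) ^ 2 = (s : ℂ) ^ 2 := by exact_mod_cast hcd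
    simp [hm, qf, Fin.sum_univ_five]
    linear_combination -(ρ : ℂ) ^ 2 * hcd' + (ρ : ℂ) ^ 2 * (c ^ 2 + d ^ 2) * I_mul_I
  have hne : (1 - θ * I : ℂ) ≠ 0 := by
    intro h
    have := congrArg Complex.re h
    simp at this
  have hXt : Xt m = Xf m := Xt_eq (by rw [hns]; linarith)
  refine ⟨(1 - θ * I : ℂ) • m, ?_, ?_, ?_⟩
  · rw [mem_cone, nsq_smul, qf_smul, hq, hns, normSq_apply]
    simp
    linear_combination hθ
  · rw [hm, ← Complex.coe_smul, smul_smul, Submodule.span_singleton_smul_eq]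
    exact (mul_ne_zero hne (by exact_mod_cast hρ0)).isUnit
  · have hM : D.Mm (1, (1 - θ * I : ℂ) • m) = m := by
      have := D.Mm_left 1 m
      rwa [chi_one, mul_one, hXt, hX, show m - (θ * I : ℂ) • m = (1 - θ * I : ℂ) • m by
        rw [sub_smul, one_smul]] at this
    have hΦ : D.Φ (1, (1 - θ * I : ℂ) • m) = (1 + θ * I : ℂ) • m := by
      rw [D.Φ_eq, hM, σ_one, hXt, hX, add_smul, one_smul]
    change D.Ψ _ ∈ _
    rw [Ψ_one, hΦ, Submodule.mem_span_singleton]
    refine ⟨-(1 + θ * I) * ρ, ?_⟩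
    apply ext5 <;> simp [hm] <;> ring

theorem ncard_fixedLines : (fixedLines D.lift).ncard = 3 := by
  obtain ⟨u, s, hu, hs, hsu, heq⟩ := exists_us D.ε
  set d : ℝ := Real.sqrt (u * (1 + u)) with hd
  have hd2 : d ^ 2 = u * (1 + u) := Real.sq_sqrt (by positivity)
  have hd0 : 0 < d := Real.sqrt_pos.2 (by positivity)
  have back : ∀ e : ℝ, e ^ 2 = u * (1 + u) →
      Submodule.span ℂ {vec s (-u) e} ∈ fixedLines D.lift := by
    intro e he
    have hθ : (2 * D.ε * e * (2 * (-u) - 1) / s) * s = 2 * D.ε * e * (2 * (-u) - 1) := by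
      field_simp
    set θ := 2 * D.ε * e * (2 * (-u) - 1) / s
    refine D.fixed_backward s (-u) e θ hs (by linear_combination he - hsu) ?_ hθ.symm ?_ ?_
    · apply mul_right_cancel₀ hs.ne'
      have : (θ * s) ^ 2 = s * (1 - s) := by
        rw [hθ, ← heq]
        linear_combination (4 * D.ε ^ 2 * (1 + 2 * u) ^ 2) * he
          - (4 * D.ε ^ 2 * (1 + u) * (1 + 2 * u)) * hsu
      linear_combination this
    · apply mul_right_cancel₀ hs.ne'
      linear_combination (2 * D.ε * e) * hsu + u * hθ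
    · apply mul_right_cancel₀ hs.ne'
      linear_combination (2 * D.ε * (1 + u)) * hsu + e * hθ - (2 * D.ε * (1 + 2 * u)) * he
  rw [Set.ncard_eq_three]
  refine ⟨Submodule.span ℂ {vec 1 1 0}, Submodule.span ℂ {vec s (-u) d},
    Submodule.span ℂ {vec s (-u) (-d)}, ?_, ?_, ?_, ?_⟩
  · intro h
    have : vec s (-u) d ∈ Submodule.span ℂ {vec 1 1 0} := by
      rw [h]; exact Submodule.mem_span_singleton_self _
    obtain ⟨a, ha⟩ := Submodule.mem_span_singleton.1 this
    have := congrFun ha 2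
    simp [hd0.ne'] at this
  · intro h
    have : vec s (-u) (-d) ∈ Submodule.span ℂ {vec 1 1 0} := by
      rw [h]; exact Submodule.mem_span_singleton_self _
    obtain ⟨a, ha⟩ := Submodule.mem_span_singleton.1 this
    have := congrFun ha 2
    simp [hd0.ne'] at this
  · intro h
    have : vec s (-u) (-d) ∈ Submodule.span ℂ {vec s (-u) d} := by
      rw [h]; exact Submodule.mem_span_singleton_self _
    obtain ⟨a, ha⟩ := Submodule.mem_span_singleton.1 this
    have h0 := congrFun ha 0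
    have h2 := congrFun ha 2
    simp only [Pi.smul_apply, vec_0, vec_2, smul_eq_mul] at h0 h2
    have hs' : (s : ℂ) ≠ 0 := by exact_mod_cast hs.ne'
    have ha1 : a = 1 := mul_right_cancel₀ hs' (by rw [h0, one_mul])
    rw [ha1] at h2
    have := congrArg Complex.im h2
    simp at this
    linarith
  · ext ℓ
    constructor
    · rintro ⟨z, hz, rfl, hΨ⟩
      obtain ⟨c, hc⟩ := Submodule.mem_span_singleton.1 hΨ
      obtain ⟨m, θ, m4, hq, hθ, hX, hzm⟩ := D.fixed_forward z hz c hc
      obtain ⟨hv, hcl⟩ := eigen_classify D.ε θ D.ε_pos m m4 hq hθ hX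
      have hs' : 0 < nsq m := by
        by_contra h
        push Not at h
        nlinarith [sq_nonneg θ]
      have hs'' : (nsq m : ℂ) ≠ 0 := by exact_mod_cast hs'.ne'
      have hz' : z = ((1 - θ * I) * m 0 / nsq m : ℂ) • vec (nsq m) (mom L1 m) (mom L2 m) := by
        have : m = (m 0 / nsq m : ℂ) • vec (nsq m) (mom L1 m) (mom L2 m) := by
          rw [div_eq_inv_mul, mul_smul, ← hv, smul_smul, inv_mul_cancel₀ hs'', one_smul]
        rw [mul_div_assoc, mul_smul, ← this, ← hzm]
      have hne : ((1 - θ * I) * m 0 / nsq m : ℂ) ≠ 0 := by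
        intro h
        rw [h, zero_smul] at hz'
        rw [hz', mem_cone, nsq_zero] at hz
        simp at hz
      have hspan : Submodule.span ℂ {z} =
          Submodule.span ℂ {vec (nsq m) (mom L1 m) (mom L2 m)} := by
        rw [hz', Submodule.span_singleton_smul_eq hne.isUnit]
      rw [hspan]
      rcases hcl with ⟨a1, a2, a3⟩ | ⟨a1, a2, a3, a4⟩
      · left; rw [a1, a2, a3]
      · right
        obtain ⟨b1, b2⟩ := us_unique D.ε u s (-mom L1 m) (nsq m) D.ε_pos hu.le a1 hs hs' hsu heq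
          a2 a4
        have b3 : mom L1 m = -u := by linarith
        rw [← b1, ← hd2] at a3
        rw [← b2, b3]
        rcases sq_eq_sq_iff_eq_or_eq_neg.1 a3 with h | h
        · left; rw [h]
        · right; rw [h]; rfl
    · rintro (rfl | rfl | rfl)
      · exact D.fixed_backward 1 1 0 0 one_pos (by norm_num) (by norm_num) (by simp) (by simp)
          (by simp)
      · exact back d hd2
      · exact back (-d) (by rw [neg_sq, hd2])

theorem degenerate : HasDegenerateFixedPoint D.lift := by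
  set ρ : ℝ := Real.sqrt (1 / 2) with hρdef
  have hρ : 2 * ρ ^ 2 = 1 := by
    rw [hρdef, Real.sq_sqrt (by positivity)]; norm_num
  set z : E := ρ • vec 1 1 0 with hz
  set w : E := ![0, 0, 0, I, 0] with hw
  have w0 : w 0 = 0 := rfl
  have w1 : w 1 = 0 := rfl
  have w2 : w 2 = 0 := rfl
  have w3 : w 3 = I := rfl
  have w4 : w 4 = 0 := rfl
  clear_value w
  have hX : ∀ τ : ℝ, Xf (z + τ • w) = 0 := by
    intro τ
    have a1 : mom L1 (z + τ • w) = 1 := by
      simp [mom_L1, mu, hz, w0, w1, w2, w3]; linear_combination hρ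
    have a2 : mom R1 (z + τ • w) = 1 := by
      simp [mom_R1, mu, hz, w0, w1, w2, w3]; linear_combination hρ
    have a3 : mom L2 (z + τ • w) = 0 := by
      simp [mom_L2, mu, hz, w0, w1, w2, w3]
    have a4 : mom R2 (z + τ • w) = 0 := by
      simp [mom_R2, mu, hz, w0, w1, w2, w3]
    simp [Xf, a1, a2, a3, a4]
  have hΨ : ∀ τ : ℝ, D.Ψ (1, z + τ • w) = -(z + τ • w) := by
    intro τ
    have hXt : Xt (z + τ • w) = 0 := by rw [Xt, hX, smul_zero]
    have hM : D.Mm (1, z + τ • w) = z + τ • w := by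
      have := D.Mm_left 1 (z + τ • w)
      rwa [hXt, smul_zero, sub_zero] at this
    rw [Ψ_one, D.Φ_eq, hM, hXt, smul_zero, add_zero]
    apply ext5 <;> simp [hz, w0, w1, w2, w3, w4] <;> ring
  refine ⟨z, ?_, -1, ?_, w, ?_, ?_, 0, ?_⟩
  · rw [mem_cone]
    constructor
    · simp [hz, nsq_coord]; linear_combination hρ
    · simp [hz, qf, Fin.sum_univ_five]
      linear_combination (ρ : ℂ) ^ 2 * I_mul_I
  · have := hΨ 0
    simp only [zero_smul, add_zero] at this
    change D.Ψ _ = _
    rw [this]; simp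
  · constructor
    · simp [herm, Fin.sum_univ_five, hz, w0, w1, w2, w3, w4]
    · simp [Fin.sum_univ_five, hz, w0, w1, w2, w3, w4]
  · intro r h
    have := congrFun h 3
    simp [hz, w3] at this
  · have hd : DifferentiableAt ℝ (fun x : E => D.Ψ (1, x)) (z + (0 : ℝ) • w) :=
      ((D.contDiff_Ψ.differentiable (by simp)).comp
        ((differentiable_const (1 : ℝ)).prodMk differentiable_id)) _
    have hl : HasDerivAt (fun τ : ℝ => z + τ • w) w 0 := by
      simpa using ((hasDerivAt_id (0 : ℝ)).smul_const w).const_add z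
    have h1 := HasFDerivAt.comp_hasDerivAt (f := fun τ : ℝ => z + τ • w) 0 hd.hasFDerivAt hl
    have h2 : ((fun x : E => D.Ψ (1, x)) ∘ fun τ : ℝ => z + τ • w) = fun τ => -(z + τ • w) :=
      funext hΨ
    rw [h2] at h1
    have h3 := h1.unique hl.neg
    simp only [zero_smul, add_zero] at h3
    change fderiv ℝ (fun x : E => D.Ψ (1, x)) z w = _
    rw [h3]; simp

end Data

end Crest.Agent.R205
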